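import Vale.Agent.P269.G2.Model
import Vale.Agent.P269.G2.H521.SrB
import Vale.Agent.P269.G2.H598.MTools

set_option autoImplicit false

/-!
# Contractions with the inverse pairing, and the series of Getzler's term, all classes
-/

namespace Vale.Agent.P269.G2.H521

open Finset.HasAntidiagonal (antidiagonal)
open Vale.Agent.P269.CI
open Vale.Agent.P269.G1 (toSer Sym shf lst)

variable {X : CompleteIntersection} {F : ℕ → ℕ → List (Ins X) → ℂ}

/-- `sr` as a linear map. -/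
noncomputable def srL (X : CompleteIntersection) : (ℕ → List (Ins X) → ℂ) →ₗ[ℂ] RM X where
  toFun := sr (E0 X)
  map_add' A B := sr_add (E0 X) A B
  map_smul' c A := sr_smul (E0 X) c A

theorem srL_apply (A : ℕ → List (Ins X) → ℂ) : srL X A = sr (E0 X) A := rfl

theorem sr_eq_zero {A : ℕ → List (Ins X) → ℂ}
    (h : ∀ d (L : List (Ix X)), A d (L.map fun a => (a, 0)) = 0) : sr (E0 X) A = 0 := by
  rw [H598.sM_congr (B := fun _ _ => 0) h]
  exact sr_zero (E0 X)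

/-! ### Products -/

theorem symF_mulS (he : Even X.dim) {A B : ℕ → List (Ins X) → ℂ} (hA : SymF (E0 X) A)
    (hB : SymF (E0 X) B) : SymF (E0 X) (mulS A B) := by
  intro d L M h
  unfold mulS
  refine Finset.sum_congr rfl fun e _ => ?_
  rw [shuffle_e (E0 X) he, shuffle_e (E0 X) he]
  exact G1.H598.shf_perm h _ _ (fun L M h => hA e.1 L M h) (fun L M h => hB e.2 L M h)

/-- the series of a correlator -/
noncomputable def S (F : ℕ → ℕ → List (Ins X) → ℂ) (g : ℕ) (P : List (Ins X)) : RM X :=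
  sr (E0 X) (cor F g P)

theorem S_perm (hF : IsGW X F) (he : Even X.dim) (g : ℕ) {P Q : List (Ins X)}
    (h : P.Perm Q) : S F g P = S F g Q := H598.cor_perm hF he g h

/-- Components of the vector field given by a correlator. -/
noncomputable def QQ (F : ℕ → ℕ → List (Ins X) → ℂ) (P : List (Ins X)) (k : Ix X) :
    RM X :=
  ∑ l : Ix X, pairingInv X l k • S F 0 (P ++ [(l, 0)])

theorem qc_eq (i j k : Ix X) : qc F i j k = QQ F [(i, 0), (j, 0)] k := rfl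

/-- Contraction with the inverse pairing. -/
noncomputable def K (Φ : Ix X → Ix X → RM X) : RM X := ∑ α, ∑ β, pairingInv X α β • Φ α β

theorem K_amb (P : List (Ins X)) (h : Ix X → RM X) :
    K (fun α β => S F 0 (P ++ [(α, 0)]) * h β) = ∑ k, QQ F P k * h k := by
  unfold K
  rw [Finset.sum_comm]
  refine Finset.sum_congr rfl fun k _ => ?_
  unfold QQ
  rw [Finset.sum_mul]
  refine Finset.sum_congr rfl fun i _ => ?_
  rw [smul_mul_assoc]

/-- The double contraction. -/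
noncomputable def KK (X : CompleteIntersection) :
    (Ix X → Ix X → Ix X → Ix X → RM X) →ₗ[ℂ] RM X where
  toFun Φ := ∑ α, ∑ β, ∑ γ, ∑ δ, (pairingInv X α β * pairingInv X γ δ) • Φ α β γ δ
  map_add' Φ Ψ := by
    simp only [Pi.add_apply, smul_add, Finset.sum_add_distrib]
  map_smul' c Φ := by
    simp only [Pi.smul_apply, Finset.smul_sum, RingHom.id_apply]
    refine Finset.sum_congr rfl fun α _ => Finset.sum_congr rfl fun β _ =>
      Finset.sum_congr rfl fun γ _ => Finset.sum_congr rfl fun δ _ => ?_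
    rw [smul_comm]

theorem KK_eq (Φ : Ix X → Ix X → Ix X → Ix X → RM X) :
    KK X Φ = K fun α β => K (Φ α β) := by
  change ∑ α, ∑ β, ∑ γ, ∑ δ, (pairingInv X α β * pairingInv X γ δ) • Φ α β γ δ = _
  unfold K
  simp only [Finset.smul_sum, smul_smul]

theorem K_mul_left (c : RM X) (Φ : Ix X → Ix X → RM X) :
    K (fun γ δ => c * Φ γ δ) = c * K Φ := by
  unfold K
  simp only [Finset.mul_sum, mul_smul_comm]

theorem KK_split (P : List (Ins X)) (B : Ix X → Ix X → Ix X → RM X) :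
    KK X (fun α β γ δ => S F 0 (P ++ [(α, 0)]) * B β γ δ) =
      ∑ k, QQ F P k * K (B k) := by
  rw [KK_eq]
  simp only [K_mul_left]
  exact K_amb P fun β => K (B β)

/-- The loop. -/
theorem K_loop (he : Even X.dim) (P : List (Ins X)) :
    K (fun γ δ => S F 0 (P ++ [(γ, 0), (δ, 0)])) = ∑ i, QQ F (P ++ [(i, 0)]) i := by
  unfold K QQ
  refine Finset.sum_congr rfl fun i _ => Finset.sum_congr rfl fun j _ => ?_
  rw [H598.pairingInv_symm' X he, List.append_assoc]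
  rfl

/-! ### The series of Getzler's term -/

section seven

variable (F : ℕ → ℕ → List (Ins X) → ℂ) (v : Fin 4 → Ix X)

/-- The seven sums. -/
noncomputable def Gz1 : RM X :=
  ∑ k, QQ F [(v 0, 0), (v 1, 0)] k * ∑ l, QQ F [(v 2, 0), (v 3, 0)] l *
    S F 1 [(k, 0), (l, 0)]

noncomputable def Gz2 : RM X :=
  ∑ k, QQ F [(v 0, 0), (v 1, 0)] k * ∑ l, QQ F [(k, 0), (v 2, 0)] l *
    S F 1 [(l, 0), (v 3, 0)]

noncomputable def Gz3 : RM X :=
  ∑ k, QQ F [(v 0, 0), (v 1, 0)] k *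
    ∑ l, QQ F [(k, 0), (v 2, 0), (v 3, 0)] l * S F 1 [(l, 0)]

noncomputable def Gz4 : RM X :=
  ∑ k, QQ F [(v 0, 0), (v 1, 0), (v 2, 0)] k *
    ∑ l, QQ F [(k, 0), (v 3, 0)] l * S F 1 [(l, 0)]

noncomputable def Gz5 : RM X :=
  ∑ k, QQ F [(v 0, 0), (v 1, 0), (v 2, 0)] k *
    ∑ i, QQ F [(k, 0), (v 3, 0), (i, 0)] i

noncomputable def Gz6 : RM X :=
  ∑ k, QQ F [(v 0, 0), (v 1, 0), (v 2, 0), (v 3, 0)] k *
    ∑ i, QQ F [(k, 0), (i, 0)] i

noncomputable def Gz7 : RM X :=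
  ∑ l, ∑ i, QQ F [(v 2, 0), (v 3, 0), (l, 0)] i * QQ F [(v 0, 0), (v 1, 0), (i, 0)] l

noncomputable def A1 (α β γ δ : Ix X) : RM X :=
  S F 0 ([(v 0, 0), (v 1, 0)] ++ [(α, 0)]) *
    (S F 0 ([(v 2, 0), (v 3, 0)] ++ [(γ, 0)]) * S F 1 [(β, 0), (δ, 0)])

noncomputable def A2 (α β γ δ : Ix X) : RM X :=
  S F 0 ([(v 0, 0), (v 1, 0)] ++ [(α, 0)]) *
    (S F 0 ([(β, 0), (v 2, 0)] ++ [(γ, 0)]) * S F 1 [(δ, 0), (v 3, 0)])

noncomputable def A3 (α β γ δ : Ix X) : RM X :=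
  S F 0 ([(v 0, 0), (v 1, 0)] ++ [(α, 0)]) *
    (S F 0 ([(β, 0), (v 2, 0), (v 3, 0)] ++ [(γ, 0)]) * S F 1 [(δ, 0)])

noncomputable def A4 (α β γ δ : Ix X) : RM X :=
  S F 0 ([(v 0, 0), (v 1, 0), (v 2, 0)] ++ [(α, 0)]) *
    (S F 0 ([(β, 0), (v 3, 0)] ++ [(γ, 0)]) * S F 1 [(δ, 0)])

noncomputable def A5 (α β γ δ : Ix X) : RM X :=
  S F 0 ([(v 0, 0), (v 1, 0), (v 2, 0)] ++ [(α, 0)]) *
    S F 0 ([(β, 0), (v 3, 0)] ++ [(γ, 0), (δ, 0)])

noncomputable def A6 (α β γ δ : Ix X) : RM X :=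
  S F 0 ([(v 0, 0), (v 1, 0), (v 2, 0), (v 3, 0)] ++ [(α, 0)]) *
    S F 0 ([(β, 0)] ++ [(γ, 0), (δ, 0)])

noncomputable def A7 (α β γ δ : Ix X) : RM X :=
  S F 0 [(v 0, 0), (v 1, 0), (α, 0), (γ, 0)] *
    S F 0 [(δ, 0), (β, 0), (v 2, 0), (v 3, 0)]

end seven

theorem KK1 (v : Fin 4 → Ix X) : KK X (A1 F v) = Gz1 F v :=
  (KK_split _ _).trans <| Finset.sum_congr rfl fun k _ =>
    congrArg _ (K_amb _ fun δ => S F 1 [(k, 0), (δ, 0)])

theorem KK2 (v : Fin 4 → Ix X) : KK X (A2 F v) = Gz2 F v :=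
  (KK_split _ _).trans <| Finset.sum_congr rfl fun k _ =>
    congrArg _ (K_amb [(k, 0), (v 2, 0)] fun δ => S F 1 [(δ, 0), (v 3, 0)])

theorem KK3 (v : Fin 4 → Ix X) : KK X (A3 F v) = Gz3 F v :=
  (KK_split _ _).trans <| Finset.sum_congr rfl fun k _ =>
    congrArg _ (K_amb [(k, 0), (v 2, 0), (v 3, 0)] fun δ => S F 1 [(δ, 0)])

theorem KK4 (v : Fin 4 → Ix X) : KK X (A4 F v) = Gz4 F v :=
  (KK_split _ _).trans <| Finset.sum_congr rfl fun k _ =>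
    congrArg _ (K_amb [(k, 0), (v 3, 0)] fun δ => S F 1 [(δ, 0)])

theorem KK5 (he : Even X.dim) (v : Fin 4 → Ix X) : KK X (A5 F v) = Gz5 F v :=
  (KK_split _ _).trans <| Finset.sum_congr rfl fun k _ =>
    congrArg _ (K_loop he [(k, 0), (v 3, 0)])

theorem KK6 (he : Even X.dim) (v : Fin 4 → Ix X) : KK X (A6 F v) = Gz6 F v :=
  (KK_split _ _).trans <| Finset.sum_congr rfl fun k _ =>
    congrArg _ (K_loop he [(k, 0)])

theorem KK7 (hF : IsGW X F) (he : Even X.dim) (v : Fin 4 → Ix X) : KK X (A7 F v) = Gz7 F v := by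
  rw [KK_eq, Gz7]
  unfold A7
  have e : ∀ i j : Ix X,
      K (fun γ δ => S F 0 [(v 0, 0), (v 1, 0), (i, 0), (γ, 0)] *
        S F 0 [(δ, 0), (j, 0), (v 2, 0), (v 3, 0)]) =
      ∑ l, QQ F [(v 0, 0), (v 1, 0), (i, 0)] l *
        S F 0 [(v 2, 0), (v 3, 0), (l, 0), (j, 0)] := by
    intro i j
    have h2 := K_amb (F := F) [(v 0, 0), (v 1, 0), (i, 0)]
      (fun δ => S F 0 [(δ, 0), (j, 0), (v 2, 0), (v 3, 0)])
    refine h2.trans (Finset.sum_congr rfl fun l _ => ?_)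
    congr 1
    refine S_perm hF he 0 (P := [(l, 0), (j, 0), (v 2, 0), (v 3, 0)])
      (Q := [(v 2, 0), (v 3, 0), (l, 0), (j, 0)]) ?_
    exact List.perm_append_comm (l₁ := [(l, 0), (j, 0)])
      (l₂ := [(v 2, 0), (v 3, 0)])
  simp only [e]
  have e2 : ∀ l i : Ix X, QQ F [(v 2, 0), (v 3, 0), (l, 0)] i *
      QQ F [(v 0, 0), (v 1, 0), (i, 0)] l =
      ∑ j, pairingInv X i j •
        (QQ F [(v 0, 0), (v 1, 0), (i, 0)] l *
          S F 0 [(v 2, 0), (v 3, 0), (l, 0), (j, 0)]) := by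
    intro l i
    conv_lhs => rw [QQ]
    rw [Finset.sum_mul]
    refine Finset.sum_congr rfl fun j _ => ?_
    rw [H598.pairingInv_symm' X he, smul_mul_assoc, mul_comm]
    rfl
  unfold K
  simp only [e2, Finset.smul_sum]
  conv_rhs => rw [Finset.sum_comm]
  refine Finset.sum_congr rfl fun i _ => ?_
  rw [Finset.sum_comm]

theorem ser3 (hF : IsGW X F) (he : Even X.dim) (g1 g2 g3 : ℕ) (P Q R : List (Ins X)) :
    sr (E0 X) (mulS (mulS (cor F g1 P) (cor F g2 Q)) (cor F g3 R)) =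
      S F g1 P * (S F g2 Q * S F g3 R) := by
  rw [sr_mulS (E0 X) he _ _ (symF_mulS he (symF_cor (E0 X) hF he g1 P) (symF_cor (E0 X) hF he g2 Q))
      (symF_cor (E0 X) hF he g3 R),
    sr_mulS (E0 X) he _ _ (symF_cor (E0 X) hF he g1 P) (symF_cor (E0 X) hF he g2 Q), mul_assoc]
  rfl

theorem ser2 (hF : IsGW X F) (he : Even X.dim) (g1 g2 : ℕ) (P Q : List (Ins X)) :
    sr (E0 X) (mulS (cor F g1 P) (cor F g2 Q)) = S F g1 P * S F g2 Q :=
  sr_mulS (E0 X) he _ _ (symF_cor (E0 X) hF he g1 P) (symF_cor (E0 X) hF he g2 Q)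

/-- The inner function of Getzler's term. -/
noncomputable def inner (F : ℕ → ℕ → List (Ins X) → ℂ) (v : Fin 4 → Ix X)
    (α β γ δ : Ix X) : ℕ → List (Ins X) → ℂ :=
  (3:ℂ) • mulS (mulS (cor F 0 [(v 0, 0), (v 1, 0), (α, 0)])
      (cor F 0 [(v 2, 0), (v 3, 0), (γ, 0)])) (cor F 1 [(β, 0), (δ, 0)])
  - (4:ℂ) • mulS (mulS (cor F 0 [(v 0, 0), (v 1, 0), (α, 0)])
      (cor F 0 [(β, 0), (v 2, 0), (γ, 0)])) (cor F 1 [(δ, 0), (v 3, 0)])
  - mulS (mulS (cor F 0 [(v 0, 0), (v 1, 0), (α, 0)])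
      (cor F 0 [(β, 0), (v 2, 0), (v 3, 0), (γ, 0)])) (cor F 1 [(δ, 0)])
  + (2:ℂ) • mulS (mulS (cor F 0 [(v 0, 0), (v 1, 0), (v 2, 0), (α, 0)])
      (cor F 0 [(β, 0), (v 3, 0), (γ, 0)])) (cor F 1 [(δ, 0)])
  + (1 / 6 : ℂ) • mulS (cor F 0 [(v 0, 0), (v 1, 0), (v 2, 0), (α, 0)])
      (cor F 0 [(β, 0), (v 3, 0), (γ, 0), (δ, 0)])
  + (1 / 24 : ℂ) • mulS (cor F 0 [(v 0, 0), (v 1, 0), (v 2, 0), (v 3, 0),
      (α, 0)]) (cor F 0 [(β, 0), (γ, 0), (δ, 0)])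
  - (1 / 4 : ℂ) • mulS (cor F 0 [(v 0, 0), (v 1, 0), (α, 0), (γ, 0)])
      (cor F 0 [(δ, 0), (β, 0), (v 2, 0), (v 3, 0)])

theorem getzlerTerm_eq (v : Fin 4 → Ix X) : getzlerTermFull F v =
    ∑ α : Ix X, ∑ β : Ix X, ∑ γ : Ix X, ∑ δ : Ix X,
      (pairingInv X α β * pairingInv X γ δ) • inner F v α β γ δ := by
  funext d L
  simp only [getzlerTermFull, inner, Finset.sum_apply, Pi.smul_apply, Pi.add_apply, Pi.sub_apply,
    smul_eq_mul]

theorem ser_inner (hF : IsGW X F) (he : Even X.dim) (v : Fin 4 → Ix X) (α β γ δ : Ix X) :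
    srL X (inner F v α β γ δ) = (3:ℂ) • A1 F v α β γ δ - (4:ℂ) • A2 F v α β γ δ -
        A3 F v α β γ δ + (2:ℂ) • A4 F v α β γ δ + (1 / 6 : ℂ) • A5 F v α β γ δ +
        (1 / 24 : ℂ) • A6 F v α β γ δ - (1 / 4 : ℂ) • A7 F v α β γ δ := by
  unfold inner
  rw [map_sub, map_add, map_add, map_add, map_sub, map_sub, map_smul, map_smul, map_smul,
    map_smul, map_smul, map_smul]
  simp only [srL_apply, ser3 hF he, ser2 hF he]
  rfl

theorem ser_getzlerTerm (hF : IsGW X F) (he : Even X.dim) (v : Fin 4 → Ix X) :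
    sr (E0 X) (getzlerTermFull F v) = (3:ℂ) • Gz1 F v - (4:ℂ) • Gz2 F v - Gz3 F v +
      (2:ℂ) • Gz4 F v + (1 / 6 : ℂ) • Gz5 F v + (1 / 24 : ℂ) • Gz6 F v -
      (1 / 4 : ℂ) • Gz7 F v := by
  have e2 : sr (E0 X) (getzlerTermFull F v) = KK X ((3:ℂ) • A1 F v - (4:ℂ) • A2 F v - A3 F v +
      (2:ℂ) • A4 F v + (1 / 6 : ℂ) • A5 F v + (1 / 24 : ℂ) • A6 F v - (1 / 4 : ℂ) • A7 F v) := by
    rw [← srL_apply, getzlerTerm_eq]
    conv_lhs => simp only [map_sum, map_smul, ser_inner hF he]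
    rfl
  rw [e2]
  rw [map_sub, map_add, map_add, map_add, map_sub, map_sub, map_smul, map_smul, map_smul,
    map_smul, map_smul, map_smul]
  rw [KK1 v, KK2 v, KK3 v, KK4 v, KK5 he v, KK6 he v, KK7 hF he v]

end Vale.Agent.P269.G2.H521
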