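import Vale.Agent.P269.G2.CSpec
import Vale.Agent.P269.G2.H984.SmallOne
import Vale.Agent.P269.G2.H861.KeyX

/-!
# [G2, J5] cubic hypersurfaces of even dimension: the relation at the origin
-/

set_option autoImplicit false

namespace Vale.Agent.P269.G2.H521.CO

open Vale.Agent.P269.CI Vale.Agent.P269.G2
open Vale.Agent.P269.G1 (RR ser cst lamc Eu lam AA cq exists_poly)
open Vale.Agent.P269.G1.H984 (cq_ne_zero)
open Vale.Agent.P269.G2.H984 (RF rhoc dP aM aM_closure aM_key natCast_cancel der_bas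
  ev0_pow_mul root_zero map_sum_coeff map_cc sum_two origin_aM dP_nat)
open Vale.Agent.P269.G2.H333 (ev0 isDer_DD IsDer DD Van dl dl_cons dl_nil DD_comm ev0_DD dl_sum
  dl_zero dl_mul_of_van dl_field_ev0 constantCoeff_ev0)
open Polynomial (aeval)

variable {X : CompleteIntersection} {F : ℕ → ℕ → List (Ins X) → ℂ}

/-- the eigenvalue of the Euler field on the primitive part vanishes at the origin -/
theorem cc_lam (hF : IsGW X F) (h1 : IsGenusOne F) (hi : 2 ≤ index X)
    (v : X.Prim) : MvPowerSeries.constantCoeff ((lam hF h1 (Eu hF h1)) v) = 0 := by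
  obtain ⟨P, hmon, hdeg, hPE, hP0⟩ := exists_poly hF h1 hi
  have hi0 : index X ≠ 0 := by omega
  have hidx := G1.index_eq X
  have hlt : excess X + 2 ≤ X.dim + 1 := by omega
  have hsum : X.dim + 1 = excess X + (X.dim + 1 - excess X) := by omega
  set l := (lam hF h1 (Eu hF h1)) v with hl
  set cc := (MvPowerSeries.constantCoeff (σ := Fin (X.dim + 1)) (R := PowerSeries ℂ)) with hcc
  have hmap := map_cc (by omega) P hmon hdeg hP0
  rw [← hcc] at hmap
  have hev : ∀ g : ℕ → RR X, cc (P.sum fun n c => c * g n) =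
      cc (g (X.dim + 1)) - PowerSeries.C (cq X) * PowerSeries.X * cc (g (excess X)) := by
    intro g
    rw [map_sum_coeff, hmap, sum_two]
    ring
  have hroot : P.sum (fun j c => c * l ^ j) = 0 := by
    have h2 := congrArg (G1.H819.lamAt hF h1 v) hPE
    rw [map_zero, ← Polynomial.aeval_algHom_apply] at h2
    rw [Polynomial.aeval_def, Polynomial.eval₂_eq_sum] at h2
    exact h2
  have h := congrArg cc hroot
  rw [hev (fun j => l ^ j), map_zero, map_pow, map_pow, sub_eq_zero] at h
  refine root_zero (m := excess X) (ν := X.dim + 1 - excess X) (by omega) (cq X)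
    (cq_ne_zero hi0) (cc l) ?_
  rw [← hsum]
  exact h

section

variable (hF : IsGW X F) (he : Even X.dim)

theorem de_two (h1 : IsGenusOneFull F) (hX : 3 ≤ X.dim) :
    (frob hF he).de 2 = aM hF he 1 := by
  have h := aM_key hF he h1 hX 1
  have h2 : ((2 : ℕ) : RM X) * (aM hF he 1 - (frob hF he).de 2) = 0 := by
    rw [mul_sub, sub_eq_zero]
    exact h
  exact (sub_eq_zero.1 (natCast_cancel 2 two_ne_zero _ h2)).symm

theorem phi_der (Y : AM hF he) (f : RM X) : phi X ((frob hF he).der Y f) =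
    ∑ b, phi X (Y b) * MvPowerSeries.pderiv (PowerSeries ℂ) b (phi X f) := by
  change phi X (∑ b, Y b * pd b f) = _
  rw [map_sum]
  refine Finset.sum_congr rfl fun b _ => ?_
  rw [map_mul, phi_pd]

/-- `Y a_n = n (E^{n-1} Y) a_1` -/
theorem phi_der_a (h1 : IsGenusOneFull F) (hX : 3 ≤ X.dim) (Y : AM hF he) (n : ℕ) :
    ∑ b, phi X (Y b) * MvPowerSeries.pderiv (PowerSeries ℂ) b (phi X (aM hF he n)) =
      (n : RF X) * ∑ b, phi X ((EM hF he ^ (n - 1) * Y : AM hF he) b) *
        MvPowerSeries.pderiv (PowerSeries ℂ) b (phi X (aM hF he 1)) := by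
  have h : (frob hF he).der Y (aM hF he n) =
      (n : RM X) * (frob hF he).der (EM hF he ^ (n - 1) * Y) ((frob hF he).de 2) :=
    H861.der_a (frob hF he) (frob_getzler hF he h1) (frob_de_one hF he hX) n Y
  rw [de_two hF he h1 hX] at h
  have h2 := congrArg (phi X) h
  rw [map_mul, map_natCast, phi_der, phi_der] at h2
  exact h2

theorem van_of (n : ℕ) (w : List X.Prim)
    (h : ∀ w' : List X.Prim, w'.length < w.length → ev0 (dP w' (phi X (aM hF he n))) = 0) :
    Van (fun v : X.Prim => DD (A := PowerSeries ℂ) (Sum.inr v : Ix X)) ev0 w.length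
      (phi X (aM hF he n)) := h

/-- the leading terms are multiples of the one of `a 1` -/
theorem lead (h1 : IsGenusOneFull F) (hX : 3 ≤ X.dim) (v : X.Prim) (w' : List X.Prim)
    (h : ∀ u : List X.Prim, u.length < (v :: w').length → ∀ n,
      ev0 (dP u (phi X (aM hF he n))) = 0) (n : ℕ) :
    ev0 (dP (v :: w') (phi X (aM hF he n))) =
      (n : RR X) * (lam hF h1.toOne (Eu hF h1.toOne)) v ^ (n - 1) *
        ev0 (dP (v :: w') (phi X (aM hF he 1))) := by
  have h1' := h1.toOne
  set l := (lam hF h1.toOne (Eu hF h1.toOne)) v with hl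
  have hderv : ∀ v : X.Prim, IsDer (DD (A := PowerSeries ℂ) (Sum.inr v : Ix X)) :=
    fun v => isDer_DD (Sum.inr v)
  set a : ℕ → RF X := fun n => phi X (aM hF he n) with ha
  set W : ℕ → X.Prim → Ix X → RF X := fun m v b =>
    phi X ((EM hF he ^ m * QA.bas (consts hF he) (Sum.inr v) : AM hF he) b) with hWdef
  have hW : ∀ m v b, ev0 (W m v (Sum.inr b)) =
      if v = b then (lam hF h1.toOne (Eu hF h1.toOne)) v ^ m else 0 :=
    fun m v b => ev0_pow_mul hF he h1' m v b
  have hvan : ∀ n, Van (fun v : X.Prim => DD (A := PowerSeries ℂ) (Sum.inr v : Ix X)) ev0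
      (v :: w').length (a n) := fun n => van_of hF he n (v :: w') fun u hu => h u hu n
  have hv1 : Van (fun v : X.Prim => DD (A := PowerSeries ℂ) (Sum.inr v : Ix X)) ev0
      (w'.length + 1) (a 1) := hvan 1
  have e0 : DD (A := PowerSeries ℂ) (Sum.inr v : Ix X) (a n) =
      (n : RF X) * ∑ b, W (n - 1) v b * DD (A := PowerSeries ℂ) b (a 1) := by
    have h := phi_der_a hF he h1 hX (QA.bas (consts hF he) (Sum.inr v)) n
    rw [← phi_der, der_bas, phi_pd] at h
    exact h
  have evan : ∀ b : Ix X, Van (fun v : X.Prim => DD (A := PowerSeries ℂ) (Sum.inr v : Ix X))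
      ev0 w'.length (DD (A := PowerSeries ℂ) b (a 1)) := by
    intro b
    rcases b with i | b
    · intro u hu
      have hcomm : ∀ (u : List X.Prim) (f : RF X),
          dl (fun v : X.Prim => DD (A := PowerSeries ℂ) (Sum.inr v : Ix X)) u
            (DD (A := PowerSeries ℂ) (Sum.inl i : Ix X) f) =
          DD (A := PowerSeries ℂ) (Sum.inl i : Ix X)
            (dl (fun v : X.Prim => DD (A := PowerSeries ℂ) (Sum.inr v : Ix X)) u f) := by
        intro u
        induction u with
        | nil => intro f; rfl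
        | cons x u ih => intro f; rw [dl_cons, dl_cons, DD_comm, ih]
      rw [hcomm, ev0_DD, hv1 u (by omega), map_zero]
    · exact hv1.deriv b
  have hpad : ∀ i : Fin (X.dim + 1),
      ev0 (dl (fun v : X.Prim => DD (A := PowerSeries ℂ) (Sum.inr v : Ix X)) w'
        (DD (A := PowerSeries ℂ) (Sum.inl i : Ix X) (a 1))) = 0 := by
    intro i
    have hcomm : ∀ (u : List X.Prim) (f : RF X),
        dl (fun v : X.Prim => DD (A := PowerSeries ℂ) (Sum.inr v : Ix X)) u
          (DD (A := PowerSeries ℂ) (Sum.inl i : Ix X) f) =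
        DD (A := PowerSeries ℂ) (Sum.inl i : Ix X)
          (dl (fun v : X.Prim => DD (A := PowerSeries ℂ) (Sum.inr v : Ix X)) u f) := by
      intro u
      induction u with
      | nil => intro f; rfl
      | cons x u ih => intro f; rw [dl_cons, dl_cons, DD_comm, ih]
    rw [hcomm, ev0_DD, hv1 w' (Nat.lt_succ_self _), map_zero]
  have e1 : ev0 (dl (fun v : X.Prim => DD (A := PowerSeries ℂ) (Sum.inr v : Ix X)) w'
      (∑ b, W (n - 1) v b * DD (A := PowerSeries ℂ) b (a 1))) = l ^ (n - 1) *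
      ev0 (dl (fun v : X.Prim => DD (A := PowerSeries ℂ) (Sum.inr v : Ix X)) (v :: w')
        (a 1)) := by
    rw [dl_sum hderv, map_sum]
    have e2 : ∀ b : Ix X, ev0 (dl (fun v : X.Prim => DD (A := PowerSeries ℂ)
        (Sum.inr v : Ix X)) w' (W (n - 1) v b * DD (A := PowerSeries ℂ) b (a 1))) =
        ev0 (W (n - 1) v b) * ev0 (dl (fun v : X.Prim => DD (A := PowerSeries ℂ)
          (Sum.inr v : Ix X)) w' (DD (A := PowerSeries ℂ) b (a 1))) := fun b =>
      dl_mul_of_van hderv (evan b) _ w' le_rfl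
    rw [Finset.sum_congr rfl fun b _ => e2 b, Fintype.sum_sum_type,
      Finset.sum_eq_zero fun i _ => by rw [hpad i, mul_zero], zero_add,
      Finset.sum_eq_single v]
    · rw [hW, if_pos rfl]
      rfl
    · intro b _ hb
      rw [hW, if_neg (Ne.symm hb), zero_mul]
    · intro h; exact absurd (Finset.mem_univ v) h
  have e3 : ev0 (dl (fun v : X.Prim => DD (A := PowerSeries ℂ) (Sum.inr v : Ix X)) w'
      ((n : RF X) * ∑ b, W (n - 1) v b * DD (A := PowerSeries ℂ) b (a 1))) = (n : RR X) *
      ev0 (dl (fun v : X.Prim => DD (A := PowerSeries ℂ) (Sum.inr v : Ix X)) w'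
        (∑ b, W (n - 1) v b * DD (A := PowerSeries ℂ) b (a 1))) := by
    have h := congrArg ev0 (dP_nat w' n
      (∑ b, W (n - 1) v b * DD (A := PowerSeries ℂ) b (a 1)))
    rw [map_mul, map_natCast] at h
    exact h
  change ev0 (dl (fun v : X.Prim => DD (A := PowerSeries ℂ) (Sum.inr v : Ix X)) (v :: w')
    (a n)) = _
  rw [dl_cons, e0, e3, e1, mul_assoc]
  rfl

/-- the closure relation along the powers of the Euler field, leading terms -/
theorem field_E (h1 : IsGenusOneFull F) (hX : 3 ≤ X.dim) (w : List X.Prim)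
    (h : ∀ u : List X.Prim, u.length < w.length → ∀ n,
      ev0 (dP u (phi X (aM hF he n))) = 0) (m : ℕ) :
    ev0 (dP w (phi X (aM hF he m))) =
      ∑ i, (Eu hF h1.toOne ^ m : AA hF h1.toOne) i * MvPowerSeries.pderiv (PowerSeries ℂ) i
        (ev0 (dP w (phi X (aM hF he 1)))) +
      (w.map fun v => rhoc hF h1.toOne m v).sum * ev0 (dP w (phi X (aM hF he 1))) := by
  have e1 := dl_field_ev0 (fun b => phi X ((EM hF he ^ m : AM hF he) b))
    (fun v => rhoc hF h1.toOne m v) (fun b => ev0_pow_inr hF he h1.toOne m b)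
    (fun v b => ev0_pd_pow hF he h1.toOne m v b) (phi X (aM hF he 1)) w
    (van_of hF he 1 w fun u hu => h u hu 1)
  have hcl : ∑ b, phi X ((EM hF he ^ m : AM hF he) b) *
      MvPowerSeries.pderiv (PowerSeries ℂ) b (phi X (aM hF he 1)) = phi X (aM hF he m) := by
    rw [← phi_der]
    have h := aM_closure hF he h1 hX m 1
    rw [Nat.cast_one, one_mul, Nat.add_sub_cancel] at h
    rw [← h]
    rfl
  rw [hcl] at e1
  refine e1.trans (congrArg (· + _) ?_)
  refine Finset.sum_congr rfl fun i _ => ?_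
  rw [ev0_pow_inl hF he h1.toOne]
  rfl

/-- the relation for the quantum Euler class, leading terms -/
theorem field_cas (h1 : IsGenusOneFull F) (hX : 3 ≤ X.dim) (ψ : RR X)
    (hψ : ∀ v b, ev0 (MvPowerSeries.pderiv (PowerSeries ℂ) (Sum.inr v)
      (phi X (cas hF he (Sum.inr b)))) = if v = b then ψ else 0) (w : List X.Prim)
    (h : ∀ u : List X.Prim, u.length < w.length → ∀ n,
      ev0 (dP u (phi X (aM hF he n))) = 0) :
    ∑ i, ev0 (phi X (cas hF he (Sum.inl i))) * MvPowerSeries.pderiv (PowerSeries ℂ) i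
        (ev0 (dP w (phi X (aM hF he 1)))) +
      (w.length : RR X) * ψ * ev0 (dP w (phi X (aM hF he 1))) = 0 := by
  have e1 := dl_field_ev0 (fun b => phi X (cas hF he b))
    (fun _ => ψ) (fun b => ev0_cas_inr hF he h1 b) hψ (phi X (aM hF he 1)) w
    (van_of hF he 1 w fun u hu => h u hu 1)
  have hcl : ∑ b, phi X (cas hF he b) *
      MvPowerSeries.pderiv (PowerSeries ℂ) b (phi X (aM hF he 1)) = 0 := by
    rw [← phi_der, ← de_two hF he h1 hX, cas_de_two hF he h1, map_zero]
  rw [hcl, dl_zero (fun v => isDer_DD (A := PowerSeries ℂ) (Sum.inr v : Ix X)) w, map_zero] at e1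
  have e2 : (w.map fun _ => ψ).sum = (w.length : RR X) * ψ := by
    rw [List.map_const', List.sum_replicate, nsmul_eq_mul]
  rw [e2] at e1
  exact e1.symm

end

theorem excess_cubic (hd : X.degs = [3]) : excess X = 2 := by
  unfold excess
  rw [hd]
  rfl

/-- the numerical coefficient -/
theorem num_ne (D N P r : ℕ) (hr : 4 ≤ r) (hP : 2 * P = N * r) :
    (-9 * ((D : ℂ) + 2) / ((r : ℂ) - 1)) * (1 - ((N : ℂ) - P)) -
      ((D : ℂ) + r + 1) / (3 * ((r : ℂ) - 1) ^ r) * (N * (-6 * ((r : ℂ) - 1) ^ r)) +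
      N * ((D : ℂ) + 4 - 2 * r) ≠ 0 := by
  obtain ⟨s, rfl⟩ := Nat.exists_eq_add_of_le hr
  have hν : (((4 + s : ℕ) : ℂ) - 1) ≠ 0 := by
    have h : (((4 + s : ℕ) : ℂ) - 1) = ((3 + s : ℕ) : ℂ) := by push_cast; ring
    rw [h]
    exact_mod_cast (by omega : 3 + s ≠ 0)
  have hP' : (P : ℂ) = N * ((4 + s : ℕ) : ℂ) / 2 := by
    have h : (2 : ℂ) * P = N * ((4 + s : ℕ) : ℂ) := by exact_mod_cast hP
    rw [← h]
    ring
  have hν2 := pow_ne_zero (4 + s) hν
  intro h0
  have h1 : ((D : ℂ) + ((4 + s : ℕ) : ℂ) + 1) / (3 * (((4 + s : ℕ) : ℂ) - 1) ^ (4 + s)) *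
      (N * (-6 * (((4 + s : ℕ) : ℂ) - 1) ^ (4 + s))) =
      -2 * N * ((D : ℂ) + ((4 + s : ℕ) : ℂ) + 1) := by
    field_simp
    ring
  rw [h1, hP'] at h0
  have h2 : ((D : ℂ) + 2) * (18 + 3 * N * s) = 0 := by
    have h3 := congrArg (fun z => -2 * (((4 + s : ℕ) : ℂ) - 1) * z) h0
    simp only [mul_zero] at h3
    rw [← h3]
    field_simp
    push_cast
    ring
  rcases mul_eq_zero.1 h2 with h | h
  · exact absurd h (by exact_mod_cast (by omega : D + 2 ≠ 0))
  · exact absurd h (by exact_mod_cast (by omega : 18 + 3 * N * s ≠ 0))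

/-- **[J5]** -/
theorem cubic_origin (hF : IsGW X F) (he : Even X.dim) (h1 : IsGenusOneFull F)
    (hX : 4 ≤ X.dim) (hd : X.degs = [3]) (hc : IsCubic F) (w : List X.Prim) (hw : w ≠ [])
    (h : ∀ w' : List X.Prim, w'.length < w.length → ∀ n,
      ev0 (dP w' (phi X (aM hF he n))) = 0) :
    MvPowerSeries.constantCoeff (dP w (phi X (aM hF he 1))) = 0 := by
  by_cases hty : 2 * (w.map X.hodgeP).sum = w.length * X.dim
  swap
  · exact origin_aM hF he h1 (by omega) 1 w fun d => vir_types hF 1 d w hty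
  have hX3 : 3 ≤ X.dim := by omega
  have hi2 : 2 ≤ index X := by
    rw [G1.index_eq X, excess_cubic hd]
    have : (4 : ℤ) ≤ X.dim := by exact_mod_cast hX
    push_cast
    omega
  obtain ⟨ψ, hψ, hψ0⟩ := ev0_pd_cas hF he h1 hX hd hc
  obtain ⟨x, hx, hx1, hxl⟩ := og_cas hF he h1 hX hd
  have ec := field_cas hF he h1 hX3 ψ hψ w h
  have eE := fun m => field_E hF he h1 hX3 w h m
  rw [← constantCoeff_ev0]
  set α : RR X := ev0 (dP w (phi X (aM hF he 1))) with hα
  set A : PowerSeries ℂ := MvPowerSeries.constantCoeff α with hA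
  set B : Fin (X.dim + 1) → PowerSeries ℂ := fun i =>
    MvPowerSeries.constantCoeff (MvPowerSeries.pderiv (PowerSeries ℂ) i α) with hB
  -- the values of the leading terms at the origin
  have hlead : ∀ k : ℕ, MvPowerSeries.constantCoeff (ev0 (dP w (phi X (aM hF he k)))) =
      if k = 1 then A else 0 := by
    intro k
    obtain ⟨v, w', rfl⟩ := List.exists_cons_of_ne_nil hw
    rw [lead hF he h1 hX3 v w' h k, map_mul, map_mul, map_pow, cc_lam hF h1.toOne hi2 v,
      map_natCast, ← hα, ← hA]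
    rcases k with _ | _ | k
    · simp
    · simp
    · rw [if_neg (by omega), show k + 1 + 1 - 1 = k + 1 by omega, zero_pow (by omega), mul_zero,
        zero_mul]
  -- the sums of the weights
  have hrho : ∀ (k : ℕ), k ≤ X.dim →
      MvPowerSeries.constantCoeff ((w.map fun v => rhoc hF h1.toOne k v).sum) =
      if k = 0 then 0 else if k = 1 then
        PowerSeries.C ((w.length : ℂ) - ((w.map X.hodgeP).sum : ℕ)) else
      if k = X.dim then
        (w.length : PowerSeries ℂ) *
          (PowerSeries.C (-6 * ((X.dim : ℂ) - 1) ^ X.dim) * PowerSeries.X)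
      else 0 := by
    intro k hk
    have hk0 := fun v => og_rho hF h1.toOne hX hd hc k hk v
    unfold og at hk0
    clear_value A B α
    clear h hw hty ec eE hlead hα hA hB A B α
    induction w with
    | nil => 
      rw [List.map_nil, List.sum_nil, map_zero]
      simp
    | cons v w ih =>
      rw [List.map_cons, List.sum_cons, map_add, hk0, ih, List.map_cons, List.sum_cons,
        List.length_cons]
      by_cases e0 : k = 0
      · simp only [if_pos e0, add_zero]
      by_cases e1 : k = 1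
      · simp only [if_neg e0, if_pos e1]
        rw [← map_add]
        congr 1
        push_cast
        ring
      by_cases e2 : k = X.dim
      · simp only [if_neg e0, if_neg e1, if_pos e2]
        push_cast
        ring
      · simp only [if_neg e0, if_neg e1, if_neg e2, add_zero]
  -- the relation
  have hE : ∀ k : Fin (X.dim + 1), ∑ i, og ((Eu hF h1.toOne ^ (k : ℕ) : AA hF h1.toOne) i) * B i =
      (if (k : ℕ) = 1 then A else 0) -
        MvPowerSeries.constantCoeff ((w.map fun v => rhoc hF h1.toOne k v).sum) * A := by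
    intro k
    have e := congrArg MvPowerSeries.constantCoeff (eE k)
    rw [hlead, map_add, map_sum, map_mul] at e
    rw [e, ← hA, add_sub_cancel_right]
    refine Finset.sum_congr rfl fun i _ => ?_
    rw [map_mul]
    rfl
  have hmain := congrArg MvPowerSeries.constantCoeff ec
  rw [map_add, map_sum, map_mul, map_mul, map_natCast, map_zero] at hmain
  have e3 : ∑ i, MvPowerSeries.constantCoeff (ev0 (phi X (cas hF he (Sum.inl i))) *
      MvPowerSeries.pderiv (PowerSeries ℂ) i α) =
      ∑ k : Fin (X.dim + 1), x k * ((if (k : ℕ) = 1 then A else 0) -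
        MvPowerSeries.constantCoeff ((w.map fun v => rhoc hF h1.toOne k v).sum) * A) := by
    have e4 : ∀ i, MvPowerSeries.constantCoeff (ev0 (phi X (cas hF he (Sum.inl i))) *
        MvPowerSeries.pderiv (PowerSeries ℂ) i α) =
        ∑ k : Fin (X.dim + 1), x k *
          (og ((Eu hF h1.toOne ^ (k : ℕ) : AA hF h1.toOne) i) * B i) := by
      intro i
      rw [map_mul]
      have := hx i
      unfold og at this
      rw [this, Finset.sum_mul]
      refine Finset.sum_congr rfl fun k _ => ?_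
      rw [mul_assoc]
      rfl
    rw [Finset.sum_congr rfl fun i _ => e4 i, Finset.sum_comm]
    refine Finset.sum_congr rfl fun k _ => ?_
    rw [← hE k, Finset.mul_sum]
  have hv1 : ((1 : Fin (X.dim + 1)) : ℕ) = 1 := by
    rw [Fin.val_one', Nat.mod_eq_of_lt (by omega)]
  have hne : (1 : Fin (X.dim + 1)) ≠ Fin.last X.dim := by
    intro e
    have := congrArg Fin.val e
    rw [hv1, Fin.val_last] at this
    omega
  rw [e3, Fintype.sum_eq_add (1 : Fin (X.dim + 1)) (Fin.last X.dim) hne, hrho _ (by omega),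
    hrho _ (by rw [Fin.val_last]), hv1, Fin.val_last, if_pos rfl, if_neg one_ne_zero, if_pos rfl,
    if_neg (by omega), if_neg (by omega), if_neg (by omega), if_pos rfl, hx1, hxl] at hmain
  swap
  · intro k hk
    have hk1 : (k : ℕ) ≠ 1 := fun e => hk.1 (Fin.ext (e.trans hv1.symm))
    have hkl : (k : ℕ) ≠ X.dim := fun e => hk.2 (Fin.ext (e.trans (Fin.val_last _).symm))
    rw [hrho _ (by omega), if_neg hk1, if_neg hk1, if_neg hkl]
    by_cases e0 : (k : ℕ) = 0
    · rw [if_pos e0, zero_mul, sub_zero, mul_zero]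
    · rw [if_neg e0, zero_mul, sub_zero, mul_zero]
  unfold og at hψ0
  rw [hψ0] at hmain
  have hnum := num_ne (Fintype.card X.Prim) w.length ((w.map X.hodgeP).sum) X.dim hX hty
  have hfin : PowerSeries.C ((-9 * ((Fintype.card X.Prim : ℂ) + 2) / ((X.dim : ℂ) - 1)) *
      (1 - ((w.length : ℂ) - ((w.map X.hodgeP).sum : ℕ))) -
      ((Fintype.card X.Prim : ℂ) + X.dim + 1) / (3 * ((X.dim : ℂ) - 1) ^ X.dim) *
        (w.length * (-6 * ((X.dim : ℂ) - 1) ^ X.dim)) +
      w.length * ((Fintype.card X.Prim : ℂ) + 4 - 2 * X.dim)) * PowerSeries.X * A = 0 := by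
    rw [← hmain]
    unfold np
    generalize (-9 * ((Fintype.card X.Prim : ℂ) + 2) / ((X.dim : ℂ) - 1)) = c1
    generalize ((w.length : ℂ) - ((w.map X.hodgeP).sum : ℕ)) = c2
    generalize ((Fintype.card X.Prim : ℂ) + X.dim + 1) / (3 * ((X.dim : ℂ) - 1) ^ X.dim) = c3
    generalize (-6 * ((X.dim : ℂ) - 1) ^ X.dim) = c4
    generalize ((Fintype.card X.Prim : ℂ) + 4 - 2 * X.dim) = c5
    simp only [map_add, map_sub, map_mul, map_one, map_natCast]
    ring
  rcases mul_eq_zero.1 hfin with h2 | h2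
  · exfalso
    rcases mul_eq_zero.1 h2 with h3 | h3
    · apply hnum
      have := congrArg (PowerSeries.constantCoeff (R := ℂ)) h3
      rwa [PowerSeries.constantCoeff_C, map_zero] at this
    · exact PowerSeries.X_ne_zero h3
  · exact h2

end Vale.Agent.P269.G2.H521.CO
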